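import Vale.Agent.P116.Bdl.B1

open Set Topology OnePoint

namespace Vale.Agent.Results.P116.DenseReduction

open Vale.Agent.P116

theorem result :
    (∀ G G' : Set (OnePoint ℂ), IsDom G → IsKoebe G → IsDom G' → G' ⊆ G →
        IsTotallyDisconnected (G \ G') → IsKoebe G') ∧
    (∀ G : Set (OnePoint ℂ), IsDom G →
        IsDom (fillDom G) ∧ G ⊆ fillDom G ∧ IsTotallyDisconnected (fillDom G \ G) ∧
          (fillDom G)ᶜ ⊆ closure (nondeg (fillDom G)) ∧
          (IsKoebe (fillDom G) → IsKoebe G)) ∧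
    ((∀ G : Set (OnePoint ℂ), IsDom G → IsKoebe G) ↔
      (∀ G : Set (OnePoint ℂ), IsDom G → Gᶜ ⊆ closure (nondeg G) → IsKoebe G)) := by
  refine ⟨fun G G' hG hK hG' hsub hE => isKoebe_of_superset hG.1 hG' hsub hE hK,
    fun G hG => ⟨isDom_fillDom hG, subset_fillDom hG.1, totallyDisconnected_fillDom_diff G,
      dense_fillDom G, isKoebe_of_fillDom hG⟩, fun h G hG _ => h G hG, fun h G hG => ?_⟩
  exact isKoebe_of_fillDom hG (h _ (isDom_fillDom hG) (dense_fillDom G))

end Vale.Agent.Results.P116.DenseReduction
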